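import Vale.Agent.Lib.P123.Inst

open Polynomial

/-- The Crouzeix constant is at most `233/100`, which is below `1 + √2`:
`‖P(A)‖ ≤ (233/100) · sup_{W(A)} |P|` for every bounded operator on every nonzero
complex inner product space and every polynomial `P`. -/
theorem Vale.Agent.Results.P123.Constant233.result
    {H : Type*} [NormedAddCommGroup H] [InnerProductSpace ℂ H] [Nontrivial H]
    (A : H →L[ℂ] H) (P : ℂ[X]) (M : ℝ)
    (hP : ∀ v : H, ‖v‖ = 1 → ‖P.eval (inner ℂ v (A v))‖ ≤ M) :
    ‖Polynomial.aeval A P‖ ≤ (233 / 100) * M :=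
  Vale.Agent.Lib.P123.U.crouzeix_233 A P M hP
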