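import Vale.Agent.Lib.P123.InstTwo

open Polynomial

/-- **Crouzeix's conjecture**: `‖P(A)‖ ≤ 2 · sup_{W(A)} |P|` for every bounded operator `A` on
every nonzero complex inner product space and every polynomial `P`.  Here `M` is any upper bound
of `|P|` on the numerical range `{⟨A v, v⟩ : ‖v‖ = 1}`, and Mathlib's `inner ℂ v (A v)` is the
usual `⟨A v, v⟩`.  Together with the Jordan block example, this gives `𝒞 = 2`. -/
theorem Vale.Agent.Results.P123.CrouzeixConjecture.result
    {H : Type*} [NormedAddCommGroup H] [InnerProductSpace ℂ H] [Nontrivial H]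
    (A : H →L[ℂ] H) (P : ℂ[X]) (M : ℝ)
    (hP : ∀ v : H, ‖v‖ = 1 → ‖P.eval (inner ℂ v (A v))‖ ≤ M) :
    ‖Polynomial.aeval A P‖ ≤ 2 * M :=
  Vale.Agent.Lib.P123.U.crouzeix_two A P M hP
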