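import Vale.Agent.Lib.P123.InstTwo

open Polynomial ComplexConjugate

/-- **The value of the Crouzeix constant**: `2` is the least constant `C` such that
`‖P(A)‖ ≤ C · M` for every nonzero complex Hilbert space `H`, every bounded operator `A` on `H`,
every polynomial `P` and every upper bound `M` of `|P|` on the numerical range
`{⟨A v, v⟩ : ‖v‖ = 1}` (Mathlib's `inner ℂ v (A v)` is the usual `⟨A v, v⟩`). -/
theorem Vale.Agent.Results.P123.CrouzeixConstantExact.result :
    IsLeast {C : ℝ | ∀ (H : Type) [NormedAddCommGroup H] [InnerProductSpace ℂ H] [CompleteSpace H]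
      [Nontrivial H] (A : H →L[ℂ] H) (P : ℂ[X]) (M : ℝ),
      (∀ v : H, ‖v‖ = 1 → ‖P.eval (inner ℂ v (A v))‖ ≤ M) → ‖Polynomial.aeval A P‖ ≤ C * M} 2 := by
  constructor
  · intro H _ _ _ _ A P M hP
    exact Vale.Agent.Lib.P123.U.crouzeix_two A P M hP
  · intro C hC
    let H := EuclideanSpace ℂ (Fin 2)
    let e : H := EuclideanSpace.single 0 1
    let f : H := EuclideanSpace.single 1 1
    let A : H →L[ℂ] H := (EuclideanSpace.proj (1 : Fin 2) : H →L[ℂ] ℂ).smulRight e
    have hA : ∀ v : H, A v = (v 1) • e := fun v => rfl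
    have hf : A f = e := by
      rw [hA]
      simp [f]
    have he : ‖e‖ = 1 := by
      show ‖(EuclideanSpace.single 0 1 : EuclideanSpace ℂ (Fin 2))‖ = 1
      rw [EuclideanSpace.norm_single]; simp
    have hfn : ‖f‖ = 1 := by
      show ‖(EuclideanSpace.single 1 1 : EuclideanSpace ℂ (Fin 2))‖ = 1
      rw [EuclideanSpace.norm_single]; simp
    have h1 : 1 ≤ ‖A‖ := by
      have := A.le_opNorm f
      rwa [hf, he, hfn, mul_one] at this
    have hM : ∀ v : H, ‖v‖ = 1 → ‖(X : ℂ[X]).eval (inner ℂ v (A v))‖ ≤ 1 / 2 := by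
      intro v hv
      rw [eval_X, hA, inner_smul_right]
      have h2 : inner ℂ v e = conj (v 0) := by
        show inner ℂ v (EuclideanSpace.single 0 1 : EuclideanSpace ℂ (Fin 2)) = conj (v 0)
        rw [EuclideanSpace.inner_single_right]
        simp
      rw [h2, norm_mul, RCLike.norm_conj]
      have h3 : ‖v‖ ^ 2 = ‖v 0‖ ^ 2 + ‖v 1‖ ^ 2 := by
        rw [EuclideanSpace.norm_sq_eq, Fin.sum_univ_two]
      rw [hv] at h3
      nlinarith [sq_nonneg (‖v 0‖ - ‖v 1‖)]
    have h4 := hC H A X (1 / 2) hM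
    rw [aeval_X] at h4
    linarith
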