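import Mathlib
import Vale.Agent.Lib.P123.Mapping

open Polynomial

/-- Convex lemniscate mapping theorem: if `{z : |P z| ≤ M}` is convex and contains the numerical
range of `A`, the numerical radius of `P(A)` is at most `M` and `‖P(A)‖ ≤ 2 * M`.
Mathlib's inner product is conjugate-linear in the first slot, so `inner ℂ x (A x)` is the usual
`⟨A x, x⟩`. -/
theorem Vale.Agent.Results.P123.LemniscateMapping.result
    {H : Type*} [NormedAddCommGroup H] [InnerProductSpace ℂ H]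
    (A : H →L[ℂ] H) (P : ℂ[X]) (M : ℝ) (hM : 0 ≤ M)
    (hconv : Convex ℝ {z : ℂ | ‖P.eval z‖ ≤ M})
    (hW : ∀ x : H, ‖x‖ = 1 → ‖P.eval (inner ℂ x (A x))‖ ≤ M) :
    (∀ x : H, ‖x‖ = 1 → ‖inner ℂ x ((aeval A P) x)‖ ≤ M) ∧ ‖aeval A P‖ ≤ 2 * M :=
  Vale.Agent.Lib.P123.lemniscate_mapping A P M hM hconv hW
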