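import Vale.Agent.Lib.P123.U.Final

open Polynomial

/-- Universal strict improvement of the Crouzeix-Palencia constant:
`‖P(A)‖ ≤ (1 + √2 - 10^(-212)) · sup_{W(A)} |P|` for every bounded operator on every nonzero
complex inner product space and every polynomial `P`. -/
theorem Vale.Agent.Results.P123.StrictCrouzeixPalencia.result
    {H : Type*} [NormedAddCommGroup H] [InnerProductSpace ℂ H] [Nontrivial H]
    (A : H →L[ℂ] H) (P : ℂ[X]) (M : ℝ)
    (hP : ∀ v : H, ‖v‖ = 1 → ‖P.eval (inner ℂ v (A v))‖ ≤ M) :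
    ‖Polynomial.aeval A P‖ ≤ (1 + Real.sqrt 2 - (10:ℝ) ^ (-212 : ℤ)) * M :=
  Vale.Agent.Lib.P123.U.crouzeix_strict A P M hP
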